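import Mathlib

/-!
# P032: the lens lemma

Six consecutive directions `p0 ≤ p1 ≤ p2 ≤ p3 ≤ p4 ≤ p5` and the alternating sums
`s0 = u p0 - u p1 + u p2 - u p3`, `s1 = u p1 - u p2 + u p3 - u p4`,
`s2 = u p2 - u p3 + u p4 - u p5` of the unit vectors `u p = exp (i p)`.
If `p5 - p0 ≥ π`, `p4 - p1 ≤ π` and `p4 - p0`, `p5 - p1` are in `[π/2, 3π/2]`, then
`‖s0‖ ≤ 1` and `‖s2‖ ≤ 1` imply `1 ≤ ‖s1‖`, with a strict inequality off the boundary.
-/

open Real

noncomputable section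

namespace Vale.Agent.P032.H882

/-- the unit vector in direction `t` -/
def uv (t : ℝ) : ℂ := ⟨cos t, sin t⟩

theorem uv_eq_exp (t : ℝ) : uv t = Complex.exp (t * Complex.I) := by
  apply Complex.ext
  · rw [Complex.exp_ofReal_mul_I_re]; rfl
  · rw [Complex.exp_ofReal_mul_I_im]; rfl

/-- cosines of a sum from below -/
theorem cos_add_ge {a b x y : ℝ} (hx0 : 0 ≤ x) (hx : x ≤ π / 2) (hy0 : 0 ≤ y) (hy : y ≤ π / 2)
    (ha : cos x ≤ cos a) (hb : cos y ≤ cos b) : cos (x + y) ≤ cos (a + b) := by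
  have hcx : 0 ≤ cos x := cos_nonneg_of_neg_pi_div_two_le_of_le (by linarith [pi_pos]) hx
  have hcy : 0 ≤ cos y := cos_nonneg_of_neg_pi_div_two_le_of_le (by linarith [pi_pos]) hy
  have hsx : 0 ≤ sin x := sin_nonneg_of_nonneg_of_le_pi hx0 (by linarith [pi_pos])
  have hsy : 0 ≤ sin y := sin_nonneg_of_nonneg_of_le_pi hy0 (by linarith [pi_pos])
  have h1 : |sin a| ≤ sin x := by
    apply abs_le_of_sq_le_sq _ hsx
    nlinarith [sin_sq_add_cos_sq a, sin_sq_add_cos_sq x]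
  have h2 : |sin b| ≤ sin y := by
    apply abs_le_of_sq_le_sq _ hsy
    nlinarith [sin_sq_add_cos_sq b, sin_sq_add_cos_sq y]
  have h3 : sin a * sin b ≤ sin x * sin y := by
    calc sin a * sin b ≤ |sin a * sin b| := le_abs_self _
      _ = |sin a| * |sin b| := abs_mul _ _
      _ ≤ sin x * sin y := mul_le_mul h1 h2 (abs_nonneg _) hsx
  have h4 : cos x * cos y ≤ cos a * cos b := mul_le_mul ha hb hcy (hcx.trans ha)
  rw [cos_add, cos_add]
  linarith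

theorem cos_add_gt {a b x y : ℝ} (hx0 : 0 ≤ x) (hx : x < π / 2) (hy0 : 0 ≤ y) (hy : y < π / 2)
    (ha : cos x < cos a) (hb : cos y < cos b) : cos (x + y) < cos (a + b) := by
  have hcx : 0 < cos x := cos_pos_of_mem_Ioo ⟨by linarith [pi_pos], hx⟩
  have hcy : 0 < cos y := cos_pos_of_mem_Ioo ⟨by linarith [pi_pos], hy⟩
  have hsx : 0 ≤ sin x := sin_nonneg_of_nonneg_of_le_pi hx0 (by linarith [pi_pos])
  have hsy : 0 ≤ sin y := sin_nonneg_of_nonneg_of_le_pi hy0 (by linarith [pi_pos])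
  have h1 : |sin a| ≤ sin x := by
    apply abs_le_of_sq_le_sq _ hsx
    nlinarith [sin_sq_add_cos_sq a, sin_sq_add_cos_sq x]
  have h2 : |sin b| ≤ sin y := by
    apply abs_le_of_sq_le_sq _ hsy
    nlinarith [sin_sq_add_cos_sq b, sin_sq_add_cos_sq y]
  have h3 : sin a * sin b ≤ sin x * sin y := by
    calc sin a * sin b ≤ |sin a * sin b| := le_abs_self _
      _ = |sin a| * |sin b| := abs_mul _ _
      _ ≤ sin x * sin y := mul_le_mul h1 h2 (abs_nonneg _) hsx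
  have h4 : cos x * cos y < cos a * cos b :=
    mul_lt_mul'' ha hb hcx.le hcy.le
  rw [cos_add, cos_add]
  linarith

/-- the inner product of `t` with the unit vector in direction `d` -/
def ip (t : ℂ) (d : ℝ) : ℝ := t.re * cos d + t.im * sin d

/-- `‖t - k v‖ ≤ 1` with `v` the unit vector in direction `d` -/
theorem ip_ge {t : ℂ} {k d : ℝ} (h : ‖t - k * uv d‖ ≤ 1) :
    ‖t‖ ^ 2 + k ^ 2 - 1 ≤ 2 * k * ip t d := by
  have h1 : ‖t - k * uv d‖ ^ 2 ≤ 1 := by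
    have := norm_nonneg (t - k * uv d); nlinarith
  rw [Complex.sq_norm, Complex.normSq_apply] at h1
  rw [Complex.sq_norm, Complex.normSq_apply]
  have e1 : (t - k * uv d).re = t.re - k * cos d := by simp [uv]
  have e2 : (t - k * uv d).im = t.im - k * sin d := by simp [uv]
  rw [e1, e2] at h1
  unfold ip
  have := sin_sq_add_cos_sq d
  nlinarith

/-- chords of the unit circle -/
theorem uv_sub (p q : ℝ) : uv q - uv p = (2 * sin ((q - p) / 2) : ℝ) * uv ((p + q) / 2 + π / 2) := by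
  have h1 : cos q - cos p = 2 * sin ((q - p) / 2) * cos ((p + q) / 2 + π / 2) := by
    rw [cos_add_pi_div_two, cos_sub_cos]
    have : sin ((q - p) / 2) * sin ((p + q) / 2) = sin ((q + p) / 2) * sin ((q - p) / 2) := by
      rw [add_comm p q]; ring
    linarith
  have h2 : sin q - sin p = 2 * sin ((q - p) / 2) * sin ((p + q) / 2 + π / 2) := by
    rw [sin_add_pi_div_two, sin_sub_sin, add_comm p q]
  apply Complex.ext
  · simp only [uv, Complex.sub_re, Complex.mul_re, Complex.ofReal_re, Complex.ofReal_im, zero_mul,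
      sub_zero]
    exact h1
  · simp only [uv, Complex.sub_im, Complex.mul_im, Complex.ofReal_re, Complex.ofReal_im, zero_mul,
      add_zero]
    exact h2

/-- polar form -/
theorem exists_arg (t : ℂ) : ∃ τ : ℝ, ∀ d, ip t d = ‖t‖ * cos (τ - d) := by
  refine ⟨Complex.arg t, fun d => ?_⟩
  unfold ip
  rw [cos_sub, mul_add, ← mul_assoc, ← mul_assoc]
  rw [Complex.norm_mul_cos_arg, Complex.norm_mul_sin_arg]

/-- the core of the lens lemma -/
theorem core {t : ℂ} {σ₁ σ₂ d₁ d₂ : ℝ} (h1 : ‖t - (2 * sin σ₁ : ℝ) * uv d₁‖ ≤ 1)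
    (h2 : ‖t - (2 * sin σ₂ : ℝ) * uv d₂‖ ≤ 1)
    (a1 : π / 4 ≤ σ₁) (b1 : σ₁ ≤ 3 * π / 4) (a2 : π / 4 ≤ σ₂) (b2 : σ₂ ≤ 3 * π / 4)
    (hd : |π / 2 - σ₁| + |π / 2 - σ₂| ≤ d₂ - d₁) (hd' : d₂ - d₁ ≤ π) : 1 ≤ ‖t‖ ∧
    (|π / 2 - σ₁| + |π / 2 - σ₂| < d₂ - d₁ → 1 < ‖t‖) := by
  have hpi := pi_pos
  obtain ⟨τ, hτ⟩ := exists_arg t
  set x := |π / 2 - σ₁| with hx
  set y := |π / 2 - σ₂| with hy
  have hx0 : 0 ≤ x := abs_nonneg _
  have hy0 : 0 ≤ y := abs_nonneg _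
  have hx1 : x ≤ π / 4 := by rw [hx, abs_le]; constructor <;> linarith
  have hy1 : y ≤ π / 4 := by rw [hy, abs_le]; constructor <;> linarith
  have cx : cos x = sin σ₁ := by rw [hx, cos_abs, cos_pi_div_two_sub]
  have cy : cos y = sin σ₂ := by rw [hy, cos_abs, cos_pi_div_two_sub]
  have hs1 : (1 / 2 : ℝ) ≤ sin σ₁ ^ 2 := by
    rw [← cx]
    have : cos (π / 4) ≤ cos x := cos_le_cos_of_nonneg_of_le_pi hx0 (by linarith) hx1
    rw [cos_pi_div_four] at this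
    have h2 : (0:ℝ) ≤ √2 / 2 := by positivity
    have h3 : (√2 / 2) ^ 2 = 1 / 2 := by
      rw [div_pow, Real.sq_sqrt (by norm_num)]; norm_num
    nlinarith
  have hs2 : (1 / 2 : ℝ) ≤ sin σ₂ ^ 2 := by
    rw [← cy]
    have : cos (π / 4) ≤ cos y := cos_le_cos_of_nonneg_of_le_pi hy0 (by linarith) hy1
    rw [cos_pi_div_four] at this
    have h2 : (0:ℝ) ≤ √2 / 2 := by positivity
    have h3 : (√2 / 2) ^ 2 = 1 / 2 := by
      rw [div_pow, Real.sq_sqrt (by norm_num)]; norm_num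
    nlinarith
  have p1 : 0 < sin σ₁ := sin_pos_of_pos_of_lt_pi (by linarith) (by linarith)
  have p2 : 0 < sin σ₂ := sin_pos_of_pos_of_lt_pi (by linarith) (by linarith)
  have g1 := ip_ge h1
  have g2 := ip_ge h2
  rw [hτ] at g1 g2
  have hr := norm_nonneg t
  set r := ‖t‖ with hrd
  -- positivity of the norm
  have hr0 : 0 < r := by
    rcases hr.lt_or_eq with h | h
    · exact h
    · rw [← h] at g1; nlinarith
  -- lower bounds of the cosines
  have key : ∀ s c : ℝ, 0 < s → 1 / 2 ≤ s ^ 2 → r ≤ 1 →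
      r ^ 2 + (2 * s) ^ 2 - 1 ≤ 2 * (2 * s) * (r * c) → s ≤ c ∧ (r < 1 → s < c) := by
    intro s c hs hs2 hr1 h
    have e1 : 0 ≤ (1 - r) * (4 * s ^ 2 - 1 - r) :=
      mul_nonneg (by linarith) (by linarith)
    have e2 : 4 * s * r * s ≤ 4 * s * r * c := by nlinarith
    have e3 : 0 < 4 * s * r := by positivity
    refine ⟨le_of_mul_le_mul_left e2 e3, fun hlt => ?_⟩
    have e1' : 0 < (1 - r) * (4 * s ^ 2 - 1 - r) :=
      mul_pos (by linarith) (by linarith)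
    have e2' : 4 * s * r * s < 4 * s * r * c := by nlinarith
    exact lt_of_mul_lt_mul_left e2' e3.le
  have eab : (τ - d₁) + (d₂ - τ) = d₂ - d₁ := by ring
  have ecos : cos (d₂ - τ) = cos (τ - d₂) := by
    rw [← cos_neg]; congr 1; ring
  constructor
  · by_contra hlt
    push Not at hlt
    obtain ⟨-, q1⟩ := key _ _ p1 hs1 hlt.le g1
    obtain ⟨-, q2⟩ := key _ _ p2 hs2 hlt.le g2
    have q1' : cos x < cos (τ - d₁) := by rw [cx]; exact q1 hlt
    have q2' : cos y < cos (d₂ - τ) := by rw [cy, ecos]; exact q2 hlt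
    have h3 := cos_add_gt hx0 (by linarith) hy0 (by linarith) q1' q2'
    rw [eab] at h3
    have h4 : cos (d₂ - d₁) ≤ cos (x + y) :=
      cos_le_cos_of_nonneg_of_le_pi (by linarith) hd' hd
    linarith
  · intro hd2
    by_contra hle
    push Not at hle
    obtain ⟨q1, -⟩ := key _ _ p1 hs1 hle g1
    obtain ⟨q2, -⟩ := key _ _ p2 hs2 hle g2
    have q1' : cos x ≤ cos (τ - d₁) := by rw [cx]; exact q1
    have q2' : cos y ≤ cos (d₂ - τ) := by rw [cy, ecos]; exact q2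
    have h3 := cos_add_ge hx0 (by linarith) hy0 (by linarith) q1' q2'
    rw [eab] at h3
    have h4 : cos (d₂ - d₁) < cos (x + y) :=
      cos_lt_cos_of_nonneg_of_le_pi (by linarith) hd' hd2
    linarith

variable {p0 p1 p2 p3 p4 p5 : ℝ}

/-- **Lens lemma.** -/
theorem lens (h01 : p0 ≤ p1) (h14 : p1 ≤ p4) (h45 : p4 ≤ p5)
    (hA : π ≤ p5 - p0) (hB : p4 - p1 ≤ π) (hC : p5 - p0 ≤ 2 * π)
    (c1 : π / 2 ≤ p4 - p0) (c2 : p4 - p0 ≤ 3 * π / 2)
    (c3 : π / 2 ≤ p5 - p1) (c4 : p5 - p1 ≤ 3 * π / 2)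
    (hs0 : ‖uv p0 - uv p1 + uv p2 - uv p3‖ ≤ 1) (hs2 : ‖uv p2 - uv p3 + uv p4 - uv p5‖ ≤ 1) :
    1 ≤ ‖uv p1 - uv p2 + uv p3 - uv p4‖ ∧
      (p0 < p1 → p4 < p5 → π < p5 - p0 → p4 - p1 < π → 1 < ‖uv p1 - uv p2 + uv p3 - uv p4‖) := by
  have hpi := pi_pos
  have e0 : uv p0 - uv p1 + uv p2 - uv p3 = (-uv p1 + uv p2 - uv p3 + uv p4) -
      (2 * sin ((p4 - p0) / 2) : ℝ) * uv ((p0 + p4) / 2 + π / 2) := by
    rw [← uv_sub]; ring
  have e2 : uv p2 - uv p3 + uv p4 - uv p5 = (-uv p1 + uv p2 - uv p3 + uv p4) -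
      (2 * sin ((p5 - p1) / 2) : ℝ) * uv ((p1 + p5) / 2 + π / 2) := by
    rw [← uv_sub]; ring
  have e1 : ‖uv p1 - uv p2 + uv p3 - uv p4‖ = ‖-uv p1 + uv p2 - uv p3 + uv p4‖ := by
    rw [← norm_neg]; congr 1; ring
  rw [e0] at hs0
  rw [e2] at hs2
  have hd : |π / 2 - (p4 - p0) / 2| + |π / 2 - (p5 - p1) / 2| ≤
      ((p1 + p5) / 2 + π / 2) - ((p0 + p4) / 2 + π / 2) := by
    rcases abs_cases (π / 2 - (p4 - p0) / 2) with ⟨h, -⟩ | ⟨h, -⟩ <;>
      rcases abs_cases (π / 2 - (p5 - p1) / 2) with ⟨h', -⟩ | ⟨h', -⟩ <;>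
      rw [h, h'] <;> linarith
  have hc := core hs0 hs2 (by linarith) (by linarith) (by linarith) (by linarith) hd
    (by linarith)
  rw [e1]
  refine ⟨hc.1, fun q1 q2 q3 q4 => hc.2 ?_⟩
  rcases abs_cases (π / 2 - (p4 - p0) / 2) with ⟨h, -⟩ | ⟨h, -⟩ <;>
    rcases abs_cases (π / 2 - (p5 - p1) / 2) with ⟨h', -⟩ | ⟨h', -⟩ <;>
    rw [h, h'] <;> linarith

end Vale.Agent.P032.H882
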